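import Crest.Agent.Lib.TW.Top
import Crest.Agent.Lib.TwoWayBeh.EulerMachine

/-!
Bridge between permutation diagrams and behaviours on darts, and the lower bound for deterministic
machines recognizing liveness.
-/

set_option autoImplicit false

namespace Crest.Agent.TW

open Crest.Agent.Lib.TwoWayBeh (Dart Walk Beh permBeh wordBeh letterPerm)
open Crest.TwoWay

universe u

variable {Q : Type u}

lemma run_of_walk {X Y : Equiv.Perm (Dart Q)} {i : Bool} {d o : Dart Q}
    (h : Walk (permBeh X).rel (permBeh Y).rel i d o) : Run (Prod.snd) X Y (d, i) o := by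
  induction h with
  | @exitA d e h1 h2 =>
    have h3 : X d = e := h1
    subst h3
    exact Run.exit (s := Prod.snd) (X := X) (Y := Y) (w := d) (b := false) h2
  | @exitB d e h1 h2 =>
    have h3 : Y d = e := h1
    subst h3
    exact Run.exit (s := Prod.snd) (X := X) (Y := Y) (w := d) (b := true) h2
  | @toB d e o h1 h2 _ ih =>
    have h3 : X d = e := h1
    subst h3
    exact Run.next (s := Prod.snd) (X := X) (Y := Y) (w := d) (b := false)
      (by simp [app, h2]) ih
  | @toA d e o h1 h2 _ ih =>
    have h3 : Y d = e := h1
    subst h3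
    exact Run.next (s := Prod.snd) (X := X) (Y := Y) (w := d) (b := true)
      (by simp [app, h2]) ih

lemma walk_of_run {X Y : Equiv.Perm (Dart Q)} {x : Dart Q × Bool} {o : Dart Q}
    (h : Run (Prod.snd) X Y x o) : Walk (permBeh X).rel (permBeh Y).rel x.2 x.1 o := by
  induction h with
  | @exit w b hb =>
    cases b with
    | false => exact Walk.exitA (A := (permBeh X).rel) rfl hb
    | true => exact Walk.exitB (B := (permBeh Y).rel) rfl hb
  | @next w b e hb _ ih =>
    cases b with
    | false =>
      have hb' : (X w).2 = true := by simpa [app] using hb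
      exact Walk.toB (A := (permBeh X).rel) (e := X w) rfl hb' ih
    | true =>
      have hb' : (Y w).2 = false := by simpa [app] using hb
      exact Walk.toA (B := (permBeh Y).rel) (e := Y w) rfl hb' ih

variable [Finite Q]

lemma permBeh_mul (X Y : Equiv.Perm (Dart Q)) :
    permBeh X * permBeh Y = permBeh (star Prod.snd X Y) := by
  apply Beh.ext
  funext d e
  apply propext
  constructor
  · intro h
    exact star_eq_of_run (run_of_walk h)
  · intro h
    have h1 : star Prod.snd X Y d = e := h
    subst h1
    exact walk_of_run (star_apply_run (s := Prod.snd) X Y d)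

omit [Finite Q] in
lemma permBeh_one : permBeh (1 : Equiv.Perm (Dart Q)) = 1 := by
  apply Beh.ext
  funext d e
  rfl

omit [Finite Q] in
lemma permBeh_injective : Function.Injective (permBeh : Equiv.Perm (Dart Q) → Beh Q) := by
  intro X Y h
  ext1 d
  have h1 : (permBeh X).rel d (X d) := rfl
  rw [h] at h1
  exact h1.symm

/-- The lower bound for deterministic machines. -/
theorem deterministic_bound {h : ℕ} (hh : 2 ≤ h) {σ : Type u} [Fintype σ]
    (D : TwoWayNFA (Fin h → Fin h → Bool) σ) (hD : D.IsDeterministic)
    (hL : D.language = liveness h) : 2 ^ ((h - 2) / 31) ≤ 4 * (Fintype.card σ + 1) ^ 2 := by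
  classical
  let δ : List (Fin h → Fin h → Bool) → Equiv.Perm (Dart (Option σ × Bool)) := fun w =>
    w.foldr (fun a X => star Prod.snd (letterPerm D a) X) 1
  have hδ : ∀ w, wordBeh D w = permBeh (δ w) := by
    intro w
    induction w with
    | nil => exact permBeh_one.symm
    | cons a w ih =>
      have h1 : wordBeh D (a :: w) = permBeh (letterPerm D a) * wordBeh D w := by
        simp [wordBeh]
      rw [h1, ih, permBeh_mul]
      rfl
  have happ : ∀ u v, δ (u ++ v) = star Prod.snd (δ u) (δ v) := by
    intro u v
    apply permBeh_injective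
    rw [← hδ, Crest.Agent.Lib.TwoWayBeh.wordBeh_append, hδ, hδ, permBeh_mul]
  have hsep : ∀ u v, δ u = δ v → ∀ a b, (wordRel u a b ↔ wordRel v a b) := by
    intro u v huv a b
    apply Crest.Agent.Lib.TwoWayBeh.tour_separates D hD hL u v
    rw [hδ, hδ, huv]
  have hmain := perm_lower_bound Prod.snd hh δ rfl happ hsep
  have hcard : Nat.card (Dart (Option σ × Bool)) = 4 * (Fintype.card σ + 1) := by
    rw [Nat.card_eq_fintype_card]
    exact Crest.Agent.Lib.TwoWayBeh.card_tour_darts σ
  have hs : 1 ≤ Fintype.card σ := Fintype.card_pos_iff.2 ⟨D.start⟩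
  exact final_numerics (N := Nat.card (Dart (Option σ × Bool))) hmain (by rw [hcard]; omega) hs

end Crest.Agent.TW
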