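import Crest.Agent.Lib.TW.Idem

/-!
The local monoid at an idempotent: corner elements act on the lines of the idempotent.
-/

set_option autoImplicit false

namespace Crest.Agent.TW

universe u w

variable {Λ : Type u} {s : Λ → Bool}

/-- Cups of `e` persist in corner elements. -/
lemma corner_cup [Finite Λ] {e X : Equiv.Perm Λ} (h1 : star s e X = X) (h2 : star s X e = X) {z : Λ}
    (hz : s (e z) ≠ s z) : X z = e z := by
  cases hs : s z with
  | true =>
    have h3 : s (e z) = false := by
      rw [hs] at hz
      simpa using hz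
    have := star_left_cup (s := s) (X := e) (Y := X) hs h3
    rwa [h1] at this
  | false =>
    have h3 : s (e z) = true := by
      rw [hs] at hz
      simpa using hz
    have := star_right_cup (s := s) (X := X) (Y := e) hs h3
    rwa [h2] at this

/-- The lines of `e`. -/
abbrev Lines (s : Λ → Bool) (e : Equiv.Perm Λ) : Type u := {a : Λ // s (e a) = s a}

/-- The orientation of lines. -/
def lineS (s : Λ → Bool) (e : Equiv.Perm Λ) (a : Lines s e) : Bool := s a.1

lemma line_invariant {e X : Equiv.Perm Λ} (h : ∀ z, s (e z) ≠ s z → X z = e z) (x : Λ) :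
    s (e ((e⁻¹ * X) x)) = s ((e⁻¹ * X) x) ↔ s (e x) = s x := by
  have hfix : ∀ z, ¬ s (e z) = s z → (e⁻¹ * X) z = z := by
    intro z hz
    simp [h z hz]
  by_cases hx : s (e x) = s x
  · simp only [hx, iff_true]
    by_contra hc
    have h1 := hfix _ hc
    have h2 : (e⁻¹ * X) x = x := (e⁻¹ * X).injective h1
    rw [h2] at hc
    exact hc hx
  · rw [hfix x hx]

/-- The action of a corner element on lines. -/
def linePerm (e X : Equiv.Perm Λ) (h : ∀ z, s (e z) ≠ s z → X z = e z) :
    Equiv.Perm (Lines s e) :=
  Equiv.Perm.subtypePerm (e⁻¹ * X) (line_invariant h)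

lemma linePerm_val {e X : Equiv.Perm Λ} (h : ∀ z, s (e z) ≠ s z → X z = e z) (a : Lines s e) :
    ((linePerm e X h) a).1 = e⁻¹ (X a.1) := rfl

lemma e_linePerm {e X : Equiv.Perm Λ} (h : ∀ z, s (e z) ≠ s z → X z = e z) (a : Lines s e) :
    e ((linePerm e X h) a).1 = X a.1 := by
  rw [linePerm_val]
  simp

/-- Along a run in `e,e` towards the output of a line, `X,Y` follow the cups of `e`. -/
lemma sim {e X Y : Equiv.Perm Λ} (hX : ∀ z, s (e z) ≠ s z → X z = e z)
    (hY : ∀ z, s (e z) ≠ s z → Y z = e z) {x : Λ × Bool} {c : Λ} (h : Run s e e x c) :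
    ∀ (a t : Λ), c = e a → s x.1 = x.2 → Run s X Y (a, s a) t → Run s X Y x t := by
  induction h with
  | @exit w b hb =>
    intro a t hc hs ht
    simp only [app_self] at hc
    have h1 := e.injective hc
    simp only at hs
    subst h1
    rw [← hs]
    exact ht
  | @next w b c' hb _ ih =>
    intro a t hc hs ht
    simp only at hs
    simp only [app_self] at hb ih
    have hcup : s (e w) ≠ s w := by rwa [hs]
    have happ : app X Y b w = e w := by
      cases b
      · exact hX w hcup
      · exact hY w hcup
    have hb' : s (app X Y b w) ≠ b := by rwa [happ]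
    refine Run.next hb' ?_
    rw [happ]
    exact ih a t hc (by simpa using bool_ne_iff.1 hb) ht

lemma app_linePerm {e X Y : Equiv.Perm Λ} (hX : ∀ z, s (e z) ≠ s z → X z = e z)
    (hY : ∀ z, s (e z) ≠ s z → Y z = e z) (b : Bool) (a : Lines s e) :
    e (app (linePerm e X hX) (linePerm e Y hY) b a).1 = app X Y b a.1 := by
  cases b
  · exact e_linePerm hX a
  · exact e_linePerm hY a

/-- Line-level runs are runs of `X,Y`. -/
lemma line_sim [Finite Λ] {e X Y : Equiv.Perm Λ} (he : star s e e = e)
    (hX : ∀ z, s (e z) ≠ s z → X z = e z)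
    (hY : ∀ z, s (e z) ≠ s z → Y z = e z) {x : Lines s e × Bool} {c : Lines s e}
    (h : Run (lineS s e) (linePerm e X hX) (linePerm e Y hY) x c) :
    Run s X Y (x.1.1, x.2) (e c.1) := by
  induction h with
  | @exit w b hb =>
    have h1 := app_linePerm hX hY b w
    rw [h1]
    refine Run.exit ?_
    rw [← h1, (app (linePerm e X hX) (linePerm e Y hY) b w).2]
    exact hb
  | @next w b c' hb _ ih =>
    have h1 := app_linePerm hX hY b w
    set d := app (linePerm e X hX) (linePerm e Y hY) b w with hd
    have h2 : s (e d.1) = s d.1 := d.2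
    have h3 : s d.1 = !b := bool_ne_iff.1 hb
    refine Run.next (by rw [← h1, h2]; exact hb) ?_
    rw [← h1]
    simp only at ih
    have r := through_run he h2
    have := sim hX hY r d.1 (e c'.1) rfl h2 (by rw [h3]; exact ih)
    simpa [h3] using this

/-- The line action is multiplicative. -/
lemma linePerm_star [Finite Λ] {e X Y Z : Equiv.Perm Λ} (he : star s e e = e)
    (hX : ∀ z, s (e z) ≠ s z → X z = e z)
    (hY : ∀ z, s (e z) ≠ s z → Y z = e z) (hZ : ∀ z, s (e z) ≠ s z → Z z = e z)
    (hstar : Z = star s X Y) :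
    linePerm e Z hZ = star (lineS s e) (linePerm e X hX) (linePerm e Y hY) := by
  ext a
  rw [linePerm_val]
  have r := line_sim he hX hY (star_apply_run (s := lineS s e) (linePerm e X hX) (linePerm e Y hY) a)
  have h1 : star s X Y a.1 = e (star (lineS s e) (linePerm e X hX) (linePerm e Y hY) a).1 :=
    star_eq_of_run r
  rw [hstar, h1]
  simp

lemma linePerm_self (e : Equiv.Perm Λ) (h : ∀ z, s (e z) ≠ s z → e z = e z) :
    linePerm e e h = 1 := by
  ext a
  rw [linePerm_val]
  simp

lemma eq_of_linePerm_eq {e X Y : Equiv.Perm Λ} (hX : ∀ z, s (e z) ≠ s z → X z = e z)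
    (hY : ∀ z, s (e z) ≠ s z → Y z = e z) (h : linePerm e X hX = linePerm e Y hY) : X = Y := by
  ext z
  by_cases hz : s (e z) = s z
  · have h1 := e_linePerm hX ⟨z, hz⟩
    have h2 := e_linePerm hY ⟨z, hz⟩
    rw [h] at h1
    simp only at h1 h2
    rw [← h1, h2]
  · rw [hX z hz, hY z hz]

/-- If `W` fixes a closed set of labels then `e * W` agrees with `e` on it. -/
lemma star_eq_on_closed [Finite Λ] {e W : Equiv.Perm Λ} {C : Set Λ} (hC : ∀ z ∈ C, e z ∈ C)
    (hW : ∀ z ∈ C, W z = z) {z : Λ} (hz : z ∈ C) : star s e W z = e z := by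
  have hWe := hW _ (hC z hz)
  cases hs : s z with
  | true =>
    cases h2 : s (e z) with
    | false => exact star_left_cup hs h2
    | true =>
      apply star_eq_of_run
      rw [hs]
      refine Run.next (w := z) (b := false) (by simp [h2]) ?_
      simp only [app_false, Bool.not_false]
      have := Run.exit (s := s) (X := e) (Y := W) (w := e z) (b := true) (by simp [hWe, h2])
      simpa [hWe] using this
  | false =>
    apply star_eq_of_run
    rw [hs]
    refine Run.next (w := z) (b := true) (by simp [hW z hz, hs]) ?_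
    simp only [app_true, hW z hz, Bool.not_true]
    cases h2 : s (e z) with
    | false =>
      have := Run.exit (s := s) (X := e) (Y := W) (w := z) (b := false) (by simp [h2])
      simpa using this
    | true =>
      refine Run.next (w := z) (b := false) (by simp [h2]) ?_
      simp only [app_false, Bool.not_false]
      have := Run.exit (s := s) (X := e) (Y := W) (w := e z) (b := true) (by simp [hWe, h2])
      simpa [hWe] using this

/-- `F3`: if `W` fixes a closed set of labels then `e W e` agrees with `e` on it. -/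
lemma star_star_eq_on_closed [Finite Λ] {e W : Equiv.Perm Λ} (he : star s e e = e) {C : Set Λ}
    (hC : ∀ z ∈ C, e z ∈ C) (hW : ∀ z ∈ C, W z = z) {z : Λ} (hz : z ∈ C) :
    star s (star s e W) e z = e z := by
  have lift : ∀ {x : Λ × Bool} {c : Λ}, Run s e e x c → x.1 ∈ C → Run s (star s e W) e x c := by
    intro x c h
    induction h with
    | @exit w b hb =>
      intro hw
      simp only at hw
      have h1 : app (star s e W) e b w = app e e b w := by
        cases b
        · exact star_eq_on_closed hC hW hw
        · rfl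
      rw [← h1]
      exact Run.exit (by rw [h1]; exact hb)
    | @next w b c' hb _ ih =>
      intro hw
      simp only at hw
      have h1 : app (star s e W) e b w = app e e b w := by
        cases b
        · exact star_eq_on_closed hC hW hw
        · rfl
      refine Run.next (by rw [h1]; exact hb) ?_
      rw [h1]
      apply ih
      simp only [app_self]
      exact hC w hw
  apply star_eq_of_run
  have r := star_apply_run (s := s) e e z
  rw [he] at r
  exact lift r hz

/-! ### The corner monoid -/

variable {T : Type w} [Monoid T]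

/-- The corner `E T E`. -/
def Corner (E : T) : Type w := {t : T // E * t = t ∧ t * E = t}

instance (E : T) [Finite T] : Finite (Corner E) := Subtype.finite

instance (E : T) [h : Fact (E * E = E)] : Monoid (Corner E) where
  mul a b := ⟨a.1 * b.1, by rw [← mul_assoc, a.2.1], by rw [mul_assoc, b.2.2]⟩
  one := ⟨E, h.out, h.out⟩
  mul_assoc a b c := Subtype.ext (mul_assoc a.1 b.1 c.1)
  one_mul a := Subtype.ext a.2.1
  mul_one a := Subtype.ext a.2.2

@[simp] lemma Corner.mul_val (E : T) [Fact (E * E = E)] (a b : Corner E) :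
    (a * b).1 = a.1 * b.1 := rfl
@[simp] lemma Corner.one_val (E : T) [Fact (E * E = E)] : (1 : Corner E).1 = E := rfl

@[simp] lemma Corner.pow_val (E : T) [Fact (E * E = E)] (a : Corner E) (n : ℕ) (hn : 0 < n) :
    (a ^ n).1 = a.1 ^ n := by
  induction n with
  | zero => omega
  | succ n ih =>
    by_cases h0 : n = 0
    · subst h0
      simp
    · rw [pow_succ, pow_succ, Corner.mul_val, ih (by omega)]

/-- The sandwich of an element. -/
def Corner.sand (E : T) [h : Fact (E * E = E)] (W : T) : Corner E :=
  ⟨E * W * E, by rw [← mul_assoc, ← mul_assoc, h.out], by rw [mul_assoc, h.out]⟩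

variable [Finite Λ] {δ : T → Equiv.Perm Λ} (hδ : ∀ a b, δ (a * b) = star s (δ a) (δ b))

include hδ in
lemma corner_hyp {E : T} (t : Corner E) : ∀ z, s (δ E z) ≠ s z → δ t.1 z = δ E z :=
  fun _ hz => corner_cup (by rw [← hδ, t.2.1]) (by rw [← hδ, t.2.2]) hz

/-- The line action of a corner element. -/
def cornerDelta {E : T} (t : Corner E) : Equiv.Perm (Lines s (δ E)) :=
  linePerm (δ E) (δ t.1) (corner_hyp hδ t)

lemma cornerDelta_one {E : T} [Fact (E * E = E)] : cornerDelta hδ (1 : Corner E) = 1 := by
  ext a
  simp [cornerDelta, linePerm_val]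

lemma cornerDelta_mul {E : T} [h : Fact (E * E = E)] (a b : Corner E) :
    cornerDelta hδ (a * b) = star (lineS s (δ E)) (cornerDelta hδ a) (cornerDelta hδ b) := by
  have he : star s (δ E) (δ E) = δ E := by rw [← hδ, h.out]
  exact linePerm_star he (corner_hyp hδ a) (corner_hyp hδ b) (corner_hyp hδ (a * b)) (hδ _ _)

lemma cornerDelta_inj {E : T} {a b : Corner E} (h : cornerDelta hδ a = cornerDelta hδ b) :
    δ a.1 = δ b.1 :=
  eq_of_linePerm_eq (corner_hyp hδ a) (corner_hyp hδ b) h

/-- `F3` at the level of lines. -/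
lemma cornerDelta_sand_fix {E : T} [h : Fact (E * E = E)] (W : T) (a : Lines s (δ E))
    (hW : ∀ z, (δ E).SameCycle a.1 z → δ W z = z) :
    cornerDelta hδ (Corner.sand E W) a = a := by
  have he : star s (δ E) (δ E) = δ E := by rw [← hδ, h.out]
  apply Subtype.ext
  have h0 : (cornerDelta hδ (Corner.sand E W) a).1 = (δ E)⁻¹ (δ (E * W * E) a.1) := rfl
  rw [h0]
  have h1 : δ (E * W * E) a.1 = δ E a.1 := by
    rw [hδ, hδ]
    refine star_star_eq_on_closed (C := {z | (δ E).SameCycle a.1 z}) he ?_ hW ?_
    · intro z hz
      exact (Equiv.Perm.sameCycle_apply_right).2 hz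
    · exact Equiv.Perm.SameCycle.refl _ _
  rw [h1]
  simp

end Crest.Agent.TW
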