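import Mathlib

/-!
Oriented diagrams: a diagram on labels `Λ` with orientation `s : Λ → Bool` (`true` = right-going)
is a permutation of `Λ`. The star product `star s X Y` is the first-return map of the gluing of
`X` and `Y`.
-/

set_option autoImplicit false

namespace Crest.Agent.TW

universe u v

variable {Λ : Type u} (s : Λ → Bool)

/-- Apply the block selected by `b`: `false` = left block `X`, `true` = right block `Y`. -/
def app (X Y : Equiv.Perm Λ) (b : Bool) (w : Λ) : Λ := cond b (Y w) (X w)

@[simp] lemma app_false (X Y : Equiv.Perm Λ) (w : Λ) : app X Y false w = X w := rfl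
@[simp] lemma app_true (X Y : Equiv.Perm Λ) (w : Λ) : app X Y true w = Y w := rfl
@[simp] lemma app_self (X : Equiv.Perm Λ) (b : Bool) (w : Λ) : app X X b w = X w := by
  cases b <;> rfl

/-- A run in the gluing of `X` and `Y`: the state `(w, b)` says that label `w` is about to enter
block `b`. After block `false` a left-going output leaves; after block `true` a right-going output
leaves; otherwise the output enters the other block. -/
inductive Run (X Y : Equiv.Perm Λ) : Λ × Bool → Λ → Prop
  | exit {w : Λ} {b : Bool} : s (app X Y b w) = b → Run X Y (w, b) (app X Y b w)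
  | next {w : Λ} {b : Bool} {e : Λ} : s (app X Y b w) ≠ b → Run X Y (app X Y b w, !b) e →
      Run X Y (w, b) e

variable {s}

lemma Run.unique {X Y : Equiv.Perm Λ} {x : Λ × Bool} {e e' : Λ} (h : Run s X Y x e)
    (h' : Run s X Y x e') : e = e' := by
  induction h generalizing e' with
  | exit hb =>
    cases h' with
    | exit _ => rfl
    | next hb' _ => exact absurd hb hb'
  | next hb _ ih =>
    cases h' with
    | exit hb' => exact absurd hb' hb
    | next _ r => exact ih r

/-- The gluing permutation on states. -/
def gPerm (X Y : Equiv.Perm Λ) : Equiv.Perm (Λ × Bool) where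
  toFun p := (app X Y p.2 p.1, !p.2)
  invFun p := (cond (!p.2) (Y.symm p.1) (X.symm p.1), !p.2)
  left_inv := by
    rintro ⟨w, b⟩
    cases b <;> simp [app]
  right_inv := by
    rintro ⟨w, b⟩
    cases b <;> simp [app]

lemma gPerm_apply (X Y : Equiv.Perm Λ) (w : Λ) (b : Bool) :
    gPerm X Y (w, b) = (app X Y b w, !b) := rfl

lemma exists_run_of_iter (X Y : Equiv.Perm Λ) :
    ∀ (n : ℕ) (x : Λ × Bool), s (((gPerm X Y)^[n + 1]) x).1 ≠ (((gPerm X Y)^[n + 1]) x).2 →
      ∃ e, Run s X Y x e := by
  intro n
  induction n with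
  | zero =>
    rintro ⟨w, b⟩ h
    simp only [zero_add, Function.iterate_one, gPerm_apply] at h
    have hb : s (app X Y b w) = b := by
      cases hx : s (app X Y b w) <;> cases b <;> simp_all
    exact ⟨_, Run.exit hb⟩
  | succ n ih =>
    rintro ⟨w, b⟩ h
    by_cases hb : s (app X Y b w) = b
    · exact ⟨_, Run.exit hb⟩
    · rw [Function.iterate_succ_apply, gPerm_apply] at h
      obtain ⟨e, he⟩ := ih _ h
      exact ⟨e, Run.next hb he⟩

lemma run_iter {X Y : Equiv.Perm Λ} {x : Λ × Bool} {e : Λ} (h : Run s X Y x e) :
    ∃ n, ((gPerm X Y)^[n + 1]) x = (e, !s e) ∧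
      ∀ m, m < n → s (((gPerm X Y)^[m + 1]) x).1 = (((gPerm X Y)^[m + 1]) x).2 := by
  induction h with
  | @exit w b hb =>
    refine ⟨0, ?_, fun m hm => absurd hm (Nat.not_lt_zero m)⟩
    simp only [zero_add, Function.iterate_one, gPerm_apply, hb]
  | @next w b e hb _ ih =>
    obtain ⟨n, h1, h2⟩ := ih
    refine ⟨n + 1, ?_, ?_⟩
    · rw [Function.iterate_succ_apply, gPerm_apply]
      exact h1
    · intro m hm
      cases m with
      | zero =>
        simp only [zero_add, Function.iterate_one, gPerm_apply]
        cases hx : s (app X Y b w) <;> cases b <;> simp_all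
      | succ m =>
        rw [Function.iterate_succ_apply, gPerm_apply]
        exact h2 m (by omega)

variable [Finite Λ]

lemma exists_run (s : Λ → Bool) (X Y : Equiv.Perm Λ) (z : Λ) : ∃ e, Run s X Y (z, !s z) e := by
  have hfin : IsOfFinOrder (gPerm X Y) := isOfFinOrder_of_finite _
  have hpos : 0 < orderOf (gPerm X Y) := hfin.orderOf_pos
  obtain ⟨n, hn⟩ : ∃ n, orderOf (gPerm X Y) = n + 1 := ⟨orderOf (gPerm X Y) - 1, by omega⟩
  have hpow : ((gPerm X Y)^[n + 1]) (z, !s z) = (z, !s z) := by
    rw [← hn, ← Equiv.Perm.coe_pow, pow_orderOf_eq_one]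
    rfl
  apply exists_run_of_iter X Y n
  rw [hpow]
  cases hz : s z <;> simp

/-- The star product as a function. -/
noncomputable def starFun (s : Λ → Bool) (X Y : Equiv.Perm Λ) (z : Λ) : Λ :=
  Classical.choose (exists_run s X Y z)

lemma starFun_spec (s : Λ → Bool) (X Y : Equiv.Perm Λ) (z : Λ) :
    Run s X Y (z, !s z) (starFun s X Y z) :=
  Classical.choose_spec (exists_run s X Y z)

lemma starFun_injective (s : Λ → Bool) (X Y : Equiv.Perm Λ) :
    Function.Injective (starFun s X Y) := by
  have key : ∀ z z' : Λ, starFun s X Y z = starFun s X Y z' →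
      ∀ n n', ((gPerm X Y)^[n + 1]) (z, !s z) = (starFun s X Y z, !s (starFun s X Y z)) →
      ((gPerm X Y)^[n' + 1]) (z', !s z') = (starFun s X Y z', !s (starFun s X Y z')) →
      (∀ m, m < n' → s (((gPerm X Y)^[m + 1]) (z', !s z')).1 =
        (((gPerm X Y)^[m + 1]) (z', !s z')).2) → n ≤ n' → z = z' := by
    intro z z' he n n' h1 h2 h3 hle
    obtain ⟨k, rfl⟩ := Nat.exists_eq_add_of_le hle
    have h4 : ((gPerm X Y)^[n + 1]) (z, !s z) = ((gPerm X Y)^[n + 1]) (((gPerm X Y)^[k]) (z', !s z')) := by
      rw [h1, he, ← h2, ← Function.iterate_add_apply]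
      congr 1
      omega
    have hinj : Function.Injective ((gPerm X Y)^[n + 1]) :=
      (Equiv.injective (gPerm X Y)).iterate _
    have h5 := hinj h4
    cases k with
    | zero =>
      simp only [Function.iterate_zero, id] at h5
      exact congrArg Prod.fst h5
    | succ k =>
      have h6 := h3 k (by omega)
      rw [← h5] at h6
      cases hz : s z <;> simp [hz] at h6
  intro z z' he
  obtain ⟨n, h1, h2⟩ := run_iter (starFun_spec s X Y z)
  obtain ⟨n', h1', h2'⟩ := run_iter (starFun_spec s X Y z')
  rcases le_total n n' with hle | hle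
  · exact key z z' he n n' h1 h1' h2' hle
  · exact (key z' z he.symm n' n h1' h1 h2 hle).symm

/-- The star product of two diagrams. -/
noncomputable def star (s : Λ → Bool) (X Y : Equiv.Perm Λ) : Equiv.Perm Λ :=
  Equiv.ofBijective (starFun s X Y) (Finite.injective_iff_bijective.1 (starFun_injective s X Y))

lemma star_apply_run (X Y : Equiv.Perm Λ) (z : Λ) :
    Run s X Y (z, !s z) (star s X Y z) := starFun_spec s X Y z

lemma star_eq_of_run {X Y : Equiv.Perm Λ} {z e : Λ} (h : Run s X Y (z, !s z) e) :
    star s X Y z = e := (star_apply_run X Y z).unique h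

/-- left cups of the left block persist -/
lemma star_left_cup {X Y : Equiv.Perm Λ} {z : Λ} (h1 : s z = true) (h2 : s (X z) = false) :
    star s X Y z = X z := by
  apply star_eq_of_run
  rw [h1]
  exact Run.exit (X := X) (Y := Y) (w := z) (b := false) h2

/-- right cups of the right block persist -/
lemma star_right_cup {X Y : Equiv.Perm Λ} {z : Λ} (h1 : s z = false) (h2 : s (Y z) = true) :
    star s X Y z = Y z := by
  apply star_eq_of_run
  rw [h1]
  exact Run.exit (X := X) (Y := Y) (w := z) (b := true) h2

/-- a label fixed by both blocks is fixed by the star -/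
lemma star_fix {X Y : Equiv.Perm Λ} {z : Λ} (hX : X z = z) (hY : Y z = z) :
    star s X Y z = z := by
  apply star_eq_of_run
  cases hz : s z with
  | true =>
    have r2 : Run s X Y (z, true) z := by
      have := Run.exit (s := s) (X := X) (Y := Y) (w := z) (b := true) (by simp [hY, hz])
      simpa [hY] using this
    exact Run.next (w := z) (b := false) (by simp [hX, hz]) (by simpa [hX] using r2)
  | false =>
    have r2 : Run s X Y (z, false) z := by
      have := Run.exit (s := s) (X := X) (Y := Y) (w := z) (b := false) (by simp [hX, hz])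
      simpa [hX] using this
    exact Run.next (w := z) (b := true) (by simp [hY, hz]) (by simpa [hY] using r2)

end Crest.Agent.TW
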