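import Crest.Agent.Lib.TW.Diagram

/-!
Idempotent diagrams: chains along cycles, cups, lines, and the key inequality `4|V| ≤ 3|U|`.
-/

set_option autoImplicit false

namespace Crest.Agent.TW

universe u

variable {Λ : Type u} {s : Λ → Bool}

/-- Inversion of a run. -/
lemma Run.inv {X Y : Equiv.Perm Λ} {w : Λ} {b : Bool} {e : Λ} (h : Run s X Y (w, b) e) :
    (s (app X Y b w) = b ∧ e = app X Y b w) ∨
      (s (app X Y b w) ≠ b ∧ Run s X Y (app X Y b w, !b) e) := by
  cases h with
  | exit hb => exact Or.inl ⟨hb, rfl⟩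
  | next hb r => exact Or.inr ⟨hb, r⟩

lemma bool_ne_iff {a b : Bool} : a ≠ b ↔ a = !b := by
  cases a <;> cases b <;> simp

variable [Finite Λ]

/-- The moved labels. -/
def Mov (X : Equiv.Perm Λ) : Set Λ := {z | X z ≠ z}

/-- `F2`: a label fixed by `Z` is fixed by everything above `Z` in the natural order. -/
lemma fixed_of_absorb {X Z : Equiv.Perm Λ} (h1 : star s X Z = Z) (h2 : star s Z X = Z) {z : Λ}
    (hz : Z z = z) : X z = z := by
  cases hs : s z with
  | true =>
    cases hx : s (X z) with
    | false =>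
      have := star_left_cup (s := s) (X := X) (Y := Z) hs hx
      rw [h1, hz] at this
      exact this.symm
    | true =>
      have hr : Run s Z X (z, !s z) (X z) := by
        rw [hs]
        refine Run.next (w := z) (b := false) (by simp [hz, hs]) ?_
        simp only [app_false, hz, Bool.not_false]
        exact Run.exit (X := Z) (Y := X) (w := z) (b := true) (by simpa using hx)
      have := star_eq_of_run hr
      rw [h2, hz] at this
      exact this.symm
  | false =>
    cases hx : s (X z) with
    | true =>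
      have := star_right_cup (s := s) (X := Z) (Y := X) hs hx
      rw [h2, hz] at this
      exact this.symm
    | false =>
      have hr : Run s X Z (z, !s z) (X z) := by
        rw [hs]
        refine Run.next (w := z) (b := true) (by simp [hz, hs]) ?_
        simp only [app_true, hz, Bool.not_true]
        exact Run.exit (X := X) (Y := Z) (w := z) (b := false) (by simpa using hx)
      have := star_eq_of_run hr
      rw [h1, hz] at this
      exact this.symm

variable {E : Equiv.Perm Λ}

/-- After a through edge of an idempotent, the second copy returns the same output. -/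
lemma through_run (hE : star s E E = E) {a : Λ} (h : s (E a) = s a) :
    Run s E E (E a, s a) (E a) := by
  have r := star_apply_run (s := s) E E a
  rw [hE] at r
  rcases Run.inv r with ⟨h1, _⟩ | ⟨_, r'⟩
  · simp only [app_self] at h1
    rw [h] at h1
    cases hs : s a <;> simp [hs] at h1
  · simpa using r'

lemma fixed_of_through_both (hE : star s E E = E) {z : Λ} (h1 : s (E z) = s z)
    (h2 : s (E.symm z) = s z) : E z = z := by
  have ha : s (E (E.symm z)) = s (E.symm z) := by simp [h2]
  have r := through_run hE ha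
  simp only [Equiv.apply_symm_apply, h2] at r
  rcases Run.inv r with ⟨_, h4⟩ | ⟨h3, _⟩
  · simp only [app_self] at h4
    exact h4.symm
  · simp only [app_self] at h3
    exact absurd h1 h3

/-- Starts of cups: `b = true` left cups, `b = false` right cups. -/
def St (s : Λ → Bool) (b : Bool) (X : Equiv.Perm Λ) : Set Λ := {u | s u = b ∧ s (X u) = !b}

/-- All labels of cups of type `b`. -/
def Cup (s : Λ → Bool) (b : Bool) (X : Equiv.Perm Λ) : Set Λ := St s b X ∪ X '' St s b X

lemma cup_maps (hE : star s E E = E) {b : Bool} {z : Λ} (hm : E z ≠ z) (h1 : z ∉ St s b E)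
    (h2 : E.symm z ∉ St s b E) : E z ∈ St s b E := by
  by_cases hz : s z = b
  · -- through edge out of `z`
    have h3 : s (E z) ≠ !b := fun h => h1 ⟨hz, h⟩
    have h4 : s (E z) = b := by
      cases hb : s (E z) <;> cases b <;> simp_all
    refine ⟨h4, ?_⟩
    have r := through_run hE (a := z) (by rw [h4, hz])
    rcases Run.inv r with ⟨_, h6⟩ | ⟨h5, _⟩
    · simp only [app_self] at h6
      exact absurd (E.injective h6).symm hm
    · simp only [app_self, hz] at h5
      exact bool_ne_iff.1 h5
  · have hz' : s z = !b := bool_ne_iff.1 hz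
    have h3 : s (E.symm z) ≠ b := by
      intro h
      apply h2
      refine ⟨h, ?_⟩
      simpa using hz'
    have h3' : s (E.symm z) = s z := by
      rw [hz', bool_ne_iff.1 h3]
    have h4 : s (E z) ≠ s z := fun h => hm (fixed_of_through_both hE h h3')
    have h4' : s (E z) = b := by
      cases hb : s (E z) <;> cases b <;> simp_all
    refine ⟨h4', ?_⟩
    have ha : s (E (E.symm z)) = s (E.symm z) := by simp [h3']
    have r := through_run hE ha
    simp only [Equiv.apply_symm_apply, h3', hz'] at r
    rcases Run.inv r with ⟨h5, _⟩ | ⟨_, r2⟩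
    · simp only [app_self, h4'] at h5
      cases b <;> simp at h5
    · simp only [app_self, Bool.not_not] at r2
      rcases Run.inv r2 with ⟨h6, h7⟩ | ⟨h6, _⟩
      · simp only [app_self] at h6 h7
        rw [← h7, hz'] at h6
        cases b <;> simp at h6
      · simp only [app_self] at h6
        exact bool_ne_iff.1 h6

lemma cup_ncard (b : Bool) (X : Equiv.Perm Λ) : (Cup s b X).ncard = 2 * (St s b X).ncard := by
  have hd : Disjoint (St s b X) (X '' St s b X) := by
    rw [Set.disjoint_left]
    rintro u ⟨hu, _⟩ ⟨v, ⟨_, hv⟩, rfl⟩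
    rw [hv] at hu
    cases b <;> simp at hu
  rw [Cup, Set.ncard_union_eq hd, Set.ncard_image_of_injective _ X.injective]
  ring

omit [Finite Λ] in
lemma st_subset_mov (b : Bool) (X : Equiv.Perm Λ) : St s b X ⊆ Mov X := by
  rintro u ⟨h1, h2⟩ h3
  rw [h3, h1] at h2
  cases b <;> simp at h2

omit [Finite Λ] in
lemma cup_subset_mov (b : Bool) (X : Equiv.Perm Λ) : Cup s b X ⊆ Mov X := by
  rintro z (hz | ⟨u, hu, rfl⟩)
  · exact st_subset_mov b X hz
  · intro h
    exact st_subset_mov b X hu (X.injective h)

lemma mov_diff_ncard (hE : star s E E = E) (b : Bool) :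
    (Mov E \ Cup s b E).ncard ≤ (St s b E).ncard := by
  refine Set.ncard_le_ncard_of_injOn E ?_ E.injective.injOn
  rintro z ⟨hm, hc⟩
  apply cup_maps hE hm
  · exact fun h => hc (Or.inl h)
  · intro h
    exact hc (Or.inr ⟨_, h, by simp⟩)

/-- The labels on the `E`-cycle of a line all run into the output of the line. -/
lemma line_orbit (hE : star s E E = E) {a : Λ} (ha : s (E a) = s a) (n : ℕ) :
    Run s E E (((E ^ n) a), s ((E ^ n) a)) (E a) := by
  induction n with
  | zero =>
    simp only [pow_zero, Equiv.Perm.coe_one, id]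
    simpa using Run.exit (s := s) (X := E) (Y := E) (w := a) (b := s a) (by simpa using ha)
  | succ n ih =>
    rw [pow_succ', Equiv.Perm.mul_apply]
    rcases Run.inv ih with ⟨h1, h2⟩ | ⟨h1, r⟩
    · simp only [app_self] at h1 h2
      have h3 := E.injective h2
      rw [← h3, ha]
      exact through_run hE ha
    · simp only [app_self] at h1 r
      rwa [bool_ne_iff.1 h1]

lemma line_unique (hE : star s E E = E) {a a' : Λ} (ha : s (E a) = s a) (ha' : s (E a') = s a')
    (h : E.SameCycle a a') : a = a' := by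
  obtain ⟨n, hn⟩ := h.exists_nat_pow_eq
  have r := line_orbit hE ha n
  rw [hn] at r
  rcases Run.inv r with ⟨_, h2⟩ | ⟨h1, _⟩
  · simp only [app_self] at h2
    exact E.injective h2
  · simp only [app_self] at h1
    exact absurd ha' h1

/-- Lines of `E` whose cycle meets `U`. -/
def LinesMeeting (s : Λ → Bool) (E : Equiv.Perm Λ) (U : Set Λ) : Set Λ :=
  {a | s (E a) = s a ∧ ∃ z ∈ U, E.SameCycle a z}

omit [Finite Λ] in
lemma inj_card {α β : Type*} [Finite α] [Finite β] {A : Set α} {B : Set β} (R : α → β → Prop)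
    (hex : ∀ a ∈ A, ∃ b ∈ B, R a b) (hinj : ∀ a ∈ A, ∀ a' ∈ A, ∀ b, R a b → R a' b → a = a') :
    A.ncard ≤ B.ncard := by
  classical
  choose f hf hr using fun a : A => hex a a.2
  let g : A → B := fun a => ⟨f a, hf a⟩
  have hg : Function.Injective g := by
    intro a a' h
    apply Subtype.ext
    have h1 : f a = f a' := congrArg Subtype.val h
    exact hinj a a.2 a' a'.2 (f a) (hr a) (by rw [h1]; exact hr a')
  rw [← Nat.card_coe_set_eq A, ← Nat.card_coe_set_eq B]
  exact Nat.card_le_card_of_injective g hg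

/-- The key inequality: `4 |V| ≤ 3 |U|`. -/
theorem key_ineq {x y : Equiv.Perm Λ} (hx : star s x x = x) (hy : star s y y = y)
    (hE : star s E E = E) (hxE : star s x E = E) (hEy : star s E y = E) :
    4 * (LinesMeeting s E (Mov x ∪ Mov y)).ncard ≤ 3 * (Mov x ∪ Mov y).ncard := by
  classical
  set U : Set Λ := Mov x ∪ Mov y with hU
  set Q : Set Λ := Cup s true x ∪ Cup s false y with hQ
  have hQU : Q ⊆ U :=
    Set.union_subset_union (cup_subset_mov true x) (cup_subset_mov false y)
  -- cups persist in `E`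
  have hcx : ∀ u ∈ St s true x, E u = x u := by
    rintro u ⟨h1, h2⟩
    have := star_left_cup (s := s) (X := x) (Y := E) h1 (by simpa using h2)
    rwa [hxE] at this
  have hcy : ∀ u ∈ St s false y, E u = y u := by
    rintro u ⟨h1, h2⟩
    have := star_right_cup (s := s) (X := E) (Y := y) h1 (by simpa using h2)
    rwa [hEy] at this
  -- each element of `Q` has a partner of opposite orientation on the same cycle
  have hpartner : ∀ z ∈ Q, ∀ b : Bool, ∃ z' ∈ Q, s z' = b ∧ E.SameCycle z z' := by
    have aux : ∀ u : Λ, u ∈ Q → E u ∈ Q → s u ≠ s (E u) → ∀ z, (z = u ∨ z = E u) → ∀ b : Bool,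
        ∃ z' ∈ Q, s z' = b ∧ E.SameCycle z z' := by
      intro u hu hu' hne z hz b
      have hc : E.SameCycle z u ∧ E.SameCycle z (E u) := by
        rcases hz with rfl | rfl
        · exact ⟨Equiv.Perm.SameCycle.refl _ _,
            (Equiv.Perm.sameCycle_apply_right).2 (Equiv.Perm.SameCycle.refl _ _)⟩
        · exact ⟨(Equiv.Perm.sameCycle_apply_left).2 (Equiv.Perm.SameCycle.refl _ _),
            Equiv.Perm.SameCycle.refl _ _⟩
      by_cases hb : s u = b
      · exact ⟨u, hu, hb, hc.1⟩
      · refine ⟨E u, hu', ?_, hc.2⟩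
        cases h1 : s u <;> cases h2 : s (E u) <;> cases b <;> simp_all
    intro z hz b
    rcases hz with (hz | hz)
    · -- `z` in a left cup of `x`
      have : ∃ u ∈ St s true x, z = u ∨ z = E u := by
        rcases hz with hz | ⟨u, hu, rfl⟩
        · exact ⟨z, hz, Or.inl rfl⟩
        · exact ⟨u, hu, Or.inr (hcx u hu).symm⟩
      obtain ⟨u, hu, hzu⟩ := this
      refine aux u (Or.inl (Or.inl hu)) ?_ ?_ z hzu b
      · rw [hcx u hu]
        exact Or.inl (Or.inr ⟨u, hu, rfl⟩)
      · rw [hcx u hu, hu.1, hu.2]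
        simp
    · have : ∃ u ∈ St s false y, z = u ∨ z = E u := by
        rcases hz with hz | ⟨u, hu, rfl⟩
        · exact ⟨z, hz, Or.inl rfl⟩
        · exact ⟨u, hu, Or.inr (hcy u hu).symm⟩
      obtain ⟨u, hu, hzu⟩ := this
      refine aux u (Or.inr (Or.inl hu)) ?_ ?_ z hzu b
      · rw [hcy u hu]
        exact Or.inr (Or.inr ⟨u, hu, rfl⟩)
      · rw [hcy u hu, hu.1, hu.2]
        simp
  -- the lines meeting `Q`
  set A : Set Λ := LinesMeeting s E Q with hA
  set Qb : Bool → Set Λ := fun b => {z | z ∈ Q ∧ s z = b} with hQb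
  have hAQb : ∀ b, A.ncard ≤ (Qb b).ncard := by
    intro b
    refine inj_card (fun a z => E.SameCycle a z) ?_ ?_
    · rintro a ⟨_, z, hz, hc⟩
      obtain ⟨z', hz', hb, hc'⟩ := hpartner z hz b
      exact ⟨z', ⟨hz', hb⟩, hc.trans hc'⟩
    · rintro a ⟨ha, _⟩ a' ⟨ha', _⟩ z h1 h2
      exact line_unique hE ha ha' (h1.trans h2.symm)
  have hQsplit : Q.ncard = (Qb true).ncard + (Qb false).ncard := by
    have hd : Disjoint (Qb true) (Qb false) := by
      rw [Set.disjoint_left]
      rintro z ⟨_, h1⟩ ⟨_, h2⟩
      rw [h1] at h2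
      simp at h2
    rw [← Set.ncard_union_eq hd]
    congr 1
    ext z
    constructor
    · intro hz
      cases hs : s z with
      | true => exact Or.inl ⟨hz, hs⟩
      | false => exact Or.inr ⟨hz, hs⟩
    · rintro (h | h) <;> exact h.1
  have hA2 : 2 * A.ncard ≤ Q.ncard := by
    have h1 := hAQb true
    have h2 := hAQb false
    omega
  -- the other lines inject into `U \ Q`
  set V : Set Λ := LinesMeeting s E U with hV
  have hB : (V \ A).ncard ≤ (U \ Q).ncard := by
    refine inj_card (fun a z => E.SameCycle a z) ?_ ?_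
    · rintro a ⟨⟨ha, z, hz, hc⟩, hn⟩
      refine ⟨z, ⟨hz, fun hzQ => hn ⟨ha, z, hzQ, hc⟩⟩, hc⟩
    · rintro a ⟨⟨ha, _⟩, _⟩ a' ⟨⟨ha', _⟩, _⟩ z h1 h2
      exact line_unique hE ha ha' (h1.trans h2.symm)
  have hR : (U \ Q).ncard ≤ (St s true x).ncard + (St s false y).ncard := by
    have hsub : U \ Q ⊆ (Mov x \ Cup s true x) ∪ (Mov y \ Cup s false y) := by
      rintro z ⟨hz | hz, hn⟩
      · exact Or.inl ⟨hz, fun h => hn (Or.inl h)⟩
      · exact Or.inr ⟨hz, fun h => hn (Or.inr h)⟩
    calc (U \ Q).ncard ≤ ((Mov x \ Cup s true x) ∪ (Mov y \ Cup s false y)).ncard :=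
          Set.ncard_le_ncard hsub
      _ ≤ (Mov x \ Cup s true x).ncard + (Mov y \ Cup s false y).ncard := Set.ncard_union_le _ _
      _ ≤ _ := add_le_add (mov_diff_ncard hx true) (mov_diff_ncard hy false)
  have hcq1 : 2 * (St s true x).ncard ≤ Q.ncard := by
    rw [← cup_ncard]
    exact Set.ncard_le_ncard Set.subset_union_left
  have hcq2 : 2 * (St s false y).ncard ≤ Q.ncard := by
    rw [← cup_ncard]
    exact Set.ncard_le_ncard Set.subset_union_right
  have hVle : V.ncard ≤ A.ncard + (V \ A).ncard := by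
    calc V.ncard ≤ (A ∪ (V \ A)).ncard := Set.ncard_le_ncard (by
            intro a ha
            by_cases h : a ∈ A
            · exact Or.inl h
            · exact Or.inr ⟨ha, h⟩)
      _ ≤ _ := Set.ncard_union_le _ _
  have hUsplit : (U \ Q).ncard + Q.ncard = U.ncard := Set.ncard_sdiff_add_ncard_of_subset hQU
  omega

end Crest.Agent.TW
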