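import Crest.Agent.Lib.TW.Corner
import Crest.Agent.Lib.TwoWayBeh.Star

/-!
The hub recursion for permutation diagrams.
-/

set_option autoImplicit false

namespace Crest.Agent.TW

open Crest.Agent.Lib.TwoWayBeh (exists_idem_pow idemPow idemPow_idem)

universe u w

/-- Composition of relations. -/
def comp (R S : ℕ → ℕ → Prop) (a b : ℕ) : Prop := ∃ c, R a c ∧ S c b

/-- Identity on an interval. -/
def idOn (j K a b : ℕ) : Prop := a = b ∧ j ≤ a ∧ a ≤ K

/-- Identity on an interval plus arcs into the hub `j`. -/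
def rho (j K i a b : ℕ) : Prop := (a = b ∧ j ≤ a ∧ a ≤ K) ∨ (b = j ∧ j < a ∧ a ≤ j + i)

/-- Identity on an interval plus arcs out of the hub `j`. -/
def sig (j K i a b : ℕ) : Prop := (a = b ∧ j ≤ a ∧ a ≤ K) ∨ (a = j ∧ j < b ∧ b ≤ j + i)

section relations

variable {j K m : ℕ}

lemma rel_E (hK : K = j + m) :
    comp (comp (rho j K m) (idOn (j + 1) K)) (sig j K m) = idOn (j + 1) K := by
  funext a b
  apply propext
  simp only [comp, rho, idOn, sig]
  constructor
  · rintro ⟨c, ⟨d, h1, h2⟩, h3⟩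
    omega
  · rintro ⟨rfl, h1, h2⟩
    exact ⟨a, ⟨a, by omega, by omega⟩, by omega⟩

lemma idOn_idem : comp (idOn j K) (idOn j K) = idOn j K := by
  funext a b
  apply propext
  simp only [comp, idOn]
  constructor
  · rintro ⟨c, h1, h2⟩
    omega
  · rintro ⟨rfl, h1, h2⟩
    exact ⟨a, by omega, by omega⟩

lemma rel_G {t : ℕ} (hK : K = j + m) (ht : t + 1 ≤ m) :
    comp (comp (idOn (j + 1) K) (comp (rho j K (t + 1)) (sig j K 1))) (idOn (j + 1) K)
      = rho (j + 1) K t := by
  funext a b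
  apply propext
  simp only [comp, rho, idOn, sig]
  constructor
  · rintro ⟨c, ⟨d, h1, ⟨f, h2, h3⟩⟩, h4⟩
    omega
  · rintro (⟨rfl, h1, h2⟩ | ⟨rfl, h1, h2⟩)
    · exact ⟨a, ⟨a, by omega, ⟨a, by omega, by omega⟩⟩, by omega⟩
    · exact ⟨j + 1, ⟨a, by omega, ⟨j, by omega, by omega⟩⟩, by omega⟩

lemma rel_G' {t : ℕ} (hK : K = j + m) (ht : t + 1 ≤ m) :
    comp (comp (idOn (j + 1) K) (comp (rho j K 1) (sig j K (t + 1)))) (idOn (j + 1) K)
      = sig (j + 1) K t := by
  funext a b
  apply propext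
  simp only [comp, rho, idOn, sig]
  constructor
  · rintro ⟨c, ⟨d, h1, ⟨f, h2, h3⟩⟩, h4⟩
    omega
  · rintro (⟨rfl, h1, h2⟩ | ⟨rfl, h1, h2⟩)
    · exact ⟨a, ⟨a, by omega, ⟨a, by omega, by omega⟩⟩, by omega⟩
    · exact ⟨b, ⟨j + 1, by omega, ⟨j, by omega, by omega⟩⟩, by omega⟩

lemma rho_step {t : ℕ} (hK : K = j + m) (ht : t + 1 ≤ m) :
    comp (comp (rho j K t) (rho j K (t + 1))) (rho j K t) = rho j K (t + 1) := by
  funext a b
  apply propext
  simp only [comp, rho]
  constructor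
  · rintro ⟨c, ⟨d, h1, h2⟩, h3⟩
    omega
  · rintro (⟨rfl, h1, h2⟩ | ⟨rfl, h1, h2⟩)
    · exact ⟨a, ⟨a, by omega, by omega⟩, by omega⟩
    · exact ⟨b, ⟨a, by omega, by omega⟩, by omega⟩

lemma sig_step {t : ℕ} (hK : K = j + m) (ht : t + 1 ≤ m) :
    comp (comp (sig j K t) (sig j K (t + 1))) (sig j K t) = sig j K (t + 1) := by
  funext a b
  apply propext
  simp only [comp, sig]
  constructor
  · rintro ⟨c, ⟨d, h1, h2⟩, h3⟩
    omega
  · rintro (⟨rfl, h1, h2⟩ | ⟨rfl, h1, h2⟩)
    · exact ⟨a, ⟨a, by omega, by omega⟩, by omega⟩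
    · exact ⟨b, ⟨a, by omega, by omega⟩, by omega⟩

lemma rho_idem {t : ℕ} (hK : K = j + m) (ht : t ≤ m) :
    comp (rho j K t) (rho j K t) = rho j K t := by
  funext a b
  apply propext
  simp only [comp, rho]
  constructor
  · rintro ⟨c, h1, h2⟩
    omega
  · rintro (⟨rfl, h1, h2⟩ | ⟨rfl, h1, h2⟩)
    · exact ⟨a, by omega, by omega⟩
    · exact ⟨a, by omega, by omega⟩

lemma sig_idem {t : ℕ} (hK : K = j + m) (ht : t ≤ m) :
    comp (sig j K t) (sig j K t) = sig j K t := by
  funext a b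
  apply propext
  simp only [comp, sig]
  constructor
  · rintro ⟨c, h1, h2⟩
    omega
  · rintro (⟨rfl, h1, h2⟩ | ⟨rfl, h1, h2⟩)
    · exact ⟨a, by omega, by omega⟩
    · exact ⟨b, by omega, by omega⟩

lemma rho_zero : rho j K 0 = idOn j K := by
  funext a b
  apply propext
  simp only [rho, idOn]
  omega

lemma sig_zero : sig j K 0 = idOn j K := by
  funext a b
  apply propext
  simp only [sig, idOn]
  omega

lemma rel_sand {j' : ℕ} (h : j + 1 ≤ j') :
    comp (comp (idOn (j + 1) K) (idOn j' K)) (idOn (j + 1) K) = idOn j' K := by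
  funext a b
  apply propext
  simp only [comp, idOn]
  constructor
  · rintro ⟨c, ⟨d, h1, h2⟩, h3⟩
    omega
  · rintro ⟨rfl, h1, h2⟩
    exact ⟨a, ⟨a, by omega, by omega⟩, by omega⟩

lemma rho_ne_idOn : rho j (j + 1) 1 ≠ idOn j (j + 1) := by
  intro h
  have h1 : rho j (j + 1) 1 (j + 1) j := Or.inr ⟨rfl, by omega, by omega⟩
  rw [h] at h1
  have := h1.1
  omega

end relations

section chain

variable {T : Type w} [Monoid T]

lemma rel_pow {ψ : T → ℕ → ℕ → Prop} (hψ : ∀ a b, ψ (a * b) = comp (ψ a) (ψ b)) {z : T}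
    (hz : comp (ψ z) (ψ z) = ψ z) (n : ℕ) : ψ (z ^ (n + 1)) = ψ z := by
  induction n with
  | zero => simp
  | succ n ih => rw [pow_succ, hψ, ih, hz]

lemma absorb_pow_left {u z : T} (h : u * z = z) (n : ℕ) : u * z ^ (n + 1) = z ^ (n + 1) := by
  rw [pow_succ', ← mul_assoc, h]

lemma absorb_pow_right {u z : T} (h : z * u = z) (n : ℕ) : z ^ (n + 1) * u = z ^ (n + 1) := by
  rw [pow_succ, mul_assoc, h]

variable [Finite T]

lemma idemPow_eq (z : T) : ∃ n, idemPow z = z ^ (n + 1) := by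
  obtain ⟨n, hn⟩ : ∃ n, Classical.choose (exists_idem_pow z) = n + 1 :=
    ⟨Classical.choose (exists_idem_pow z) - 1, by
      have := (Classical.choose_spec (exists_idem_pow z)).1
      omega⟩
  refine ⟨n, ?_⟩
  unfold idemPow
  rw [hn]

/-- Chain of idempotents from generators. -/
noncomputable def chainOf (g : ℕ → T) : ℕ → T
  | 0 => 1
  | t + 1 => idemPow (chainOf g t * g (t + 1) * chainOf g t)

lemma chainOf_idem (g : ℕ → T) (t : ℕ) : chainOf g t * chainOf g t = chainOf g t := by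
  cases t with
  | zero => simp [chainOf]
  | succ t => exact idemPow_idem _

lemma chainOf_absorb (g : ℕ → T) (t : ℕ) :
    chainOf g t * chainOf g (t + 1) = chainOf g (t + 1) ∧
      chainOf g (t + 1) * chainOf g t = chainOf g (t + 1) := by
  have hi := chainOf_idem g t
  obtain ⟨n, hn⟩ := idemPow_eq (chainOf g t * g (t + 1) * chainOf g t)
  have h1 : chainOf g (t + 1) = (chainOf g t * g (t + 1) * chainOf g t) ^ (n + 1) := hn
  rw [h1]
  constructor
  · apply absorb_pow_left
    rw [← mul_assoc, ← mul_assoc, hi]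
  · apply absorb_pow_right
    rw [mul_assoc, hi]

lemma chainOf_rel {ψ : T → ℕ → ℕ → Prop} (hψ : ∀ a b, ψ (a * b) = comp (ψ a) (ψ b))
    {R : ℕ → ℕ → ℕ → Prop} {m : ℕ} {g : ℕ → T} (h0 : ψ 1 = R 0)
    (hg : ∀ t, t < m → ψ (g (t + 1)) = R (t + 1))
    (hR : ∀ t, t < m → comp (comp (R t) (R (t + 1))) (R t) = R (t + 1))
    (hRR : ∀ t, t < m → comp (R (t + 1)) (R (t + 1)) = R (t + 1)) :
    ∀ t, t ≤ m → ψ (chainOf g t) = R t := by
  intro t
  induction t with
  | zero => intro _; simpa [chainOf] using h0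
  | succ t ih =>
    intro ht
    have hlt : t < m := ht
    have hz : ψ (chainOf g t * g (t + 1) * chainOf g t) = R (t + 1) := by
      rw [hψ, hψ, ih (by omega), hg t hlt, hR t hlt]
    obtain ⟨n, hn⟩ := idemPow_eq (chainOf g t * g (t + 1) * chainOf g t)
    have h1 : chainOf g (t + 1) = (chainOf g t * g (t + 1) * chainOf g t) ^ (n + 1) := hn
    rw [h1, rel_pow hψ (by rw [hz]; exact hRR t hlt) n, hz]

lemma chainOf_mem (g : ℕ → T) (P : Submonoid T) {m : ℕ} (hg : ∀ t, t < m → g (t + 1) ∈ P) :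
    ∀ t, t ≤ m → chainOf g t ∈ P := by
  intro t
  induction t with
  | zero => intro _; exact P.one_mem
  | succ t ih =>
    intro ht
    obtain ⟨n, hn⟩ := idemPow_eq (chainOf g t * g (t + 1) * chainOf g t)
    have h1 : chainOf g (t + 1) = (chainOf g t * g (t + 1) * chainOf g t) ^ (n + 1) := hn
    rw [h1]
    have hc := ih (by omega)
    exact P.pow_mem (P.mul_mem (P.mul_mem hc (hg t ht)) hc) _

end chain

section main

variable {T : Type w} [Monoid T] {Λ : Type u} [Finite Λ] {s : Λ → Bool}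
  {δ : T → Equiv.Perm Λ}

lemma fix_down (hδ : ∀ a b, δ (a * b) = star s (δ a) (δ b)) {x : ℕ → T} {n : ℕ}
    (h : ∀ i, 1 ≤ i → i < n → x i * x (i + 1) = x (i + 1) ∧ x (i + 1) * x i = x (i + 1))
    {z : Λ} (hz : δ (x n) z = z) : ∀ i, 1 ≤ i → i ≤ n → δ (x i) z = z := by
  have key : ∀ d i, 1 ≤ i → i + d = n → δ (x i) z = z := by
    intro d
    induction d with
    | zero =>
      intro i _ hi
      have : i = n := by omega
      rw [this]
      exact hz
    | succ d ih =>
      intro i h1 hi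
      have h2 := ih (i + 1) (by omega) (by omega)
      obtain ⟨h3, h4⟩ := h i h1 (by omega)
      refine fixed_of_absorb (s := s) (Z := δ (x (i + 1))) ?_ ?_ h2
      · rw [← hδ, h3]
      · rw [← hδ, h4]
  intro i h1 h2
  exact key (n - i) i h1 (by omega)

/-- The fixer of a line in the corner monoid. -/
def lineFixer (hδ : ∀ a b, δ (a * b) = star s (δ a) (δ b)) (E : T) [Fact (E * E = E)]
    (a : Lines s (δ E)) : Submonoid (Corner E) where
  carrier := {t | cornerDelta hδ t a = a}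
  one_mem' := by
    show cornerDelta hδ (1 : Corner E) a = a
    rw [cornerDelta_one]
    rfl
  mul_mem' := by
    intro p q hp hq
    show cornerDelta hδ (p * q) a = a
    rw [cornerDelta_mul]
    exact star_fix hp hq

end main

/-- The hub recursion. -/
theorem recursion (m : ℕ) : ∀ {T : Type w} [Monoid T] [Finite T] {Λ : Type u} [Finite Λ]
    (s : Λ → Bool) (δ : T → Equiv.Perm Λ) (_ : δ 1 = 1)
    (hδ : ∀ a b, δ (a * b) = star s (δ a) (δ b)) (j K : ℕ) (_ : K = j + m + 1)
    (ψ : T → ℕ → ℕ → Prop) (_ : ψ 1 = idOn j K) (_ : ∀ a b, ψ (a * b) = comp (ψ a) (ψ b))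
    (_ : ∀ a b, δ a = δ b → ψ a = ψ b)
    (_ : ∀ j', j < j' → j' ≤ K → ∃ k, ψ k = idOn j' K)
    (x y : ℕ → T)
    (_ : ∀ i, 1 ≤ i → i ≤ m + 1 → ψ (x i) = rho j K i)
    (_ : ∀ i, 1 ≤ i → i ≤ m + 1 → ψ (y i) = sig j K i)
    (_ : x (m + 1) * x (m + 1) = x (m + 1))
    (_ : y (m + 1) * y (m + 1) = y (m + 1))
    (_ : ∀ i, 1 ≤ i → i < m + 1 → x i * x (i + 1) = x (i + 1) ∧ x (i + 1) * x i = x (i + 1))
    (_ : ∀ i, 1 ≤ i → i < m + 1 → y i * y (i + 1) = y (i + 1) ∧ y (i + 1) * y i = y (i + 1)),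
    2 * 4 ^ m ≤ (Mov (δ (x (m + 1))) ∪ Mov (δ (y (m + 1)))).ncard * 3 ^ m := by
  induction m with
  | zero =>
    intro T _ _ Λ _ s δ hδ1 hδ j K hK ψ hψ1 hψ sep _ x y hxR _ _ _ _ _
    subst hK
    have hne : δ (x 1) ≠ 1 := by
      intro h
      have h1 := sep (x 1) 1 (by rw [h, hδ1])
      rw [hxR 1 (le_refl _) (by omega), hψ1] at h1
      exact rho_ne_idOn h1
    have hex : ∃ z, δ (x 1) z ≠ z := by
      by_contra hc
      push Not at hc
      exact hne (Equiv.ext hc)
    obtain ⟨z, hz⟩ := hex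
    have hsub : ({z, δ (x 1) z} : Set Λ) ⊆ Mov (δ (x (0 + 1))) ∪ Mov (δ (y (0 + 1))) := by
      rintro w (rfl | rfl)
      · exact Or.inl hz
      · exact Or.inl (fun h => hz ((δ (x 1)).injective h))
    have h2 := Set.ncard_le_ncard hsub
    rw [Set.ncard_pair (Ne.symm hz)] at h2
    simpa using h2
  | succ m ih =>
    intro T _ _ Λ _ s δ hδ1 hδ j K hK ψ hψ1 hψ sep hk x y hxR hyR hxi hyi hxx hyy
    obtain ⟨k, hkψ⟩ := hk (j + 1) (by omega) (by omega)
    set X := x (m + 1 + 1) with hX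
    set Y := y (m + 1 + 1) with hY
    have hK2 : K = j + (m + 2) := by omega
    set z := X * k * Y with hz
    obtain ⟨n, hn⟩ := idemPow_eq z
    set E := idemPow z with hE
    have hEE : E * E = E := idemPow_idem z
    have : Fact (E * E = E) := ⟨hEE⟩
    have hXR : ψ X = rho j K (m + 2) := hxR _ (by omega) (by omega)
    have hYR : ψ Y = sig j K (m + 2) := hyR _ (by omega) (by omega)
    have hzR : ψ z = idOn (j + 1) K := by
      rw [hz, hψ, hψ, hXR, hkψ, hYR]
      exact rel_E hK2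
    have hER : ψ E = idOn (j + 1) K := by
      rw [hn, rel_pow hψ (by rw [hzR]; exact idOn_idem) n, hzR]
    have hXE : X * E = E := by
      rw [hn]
      apply absorb_pow_left
      rw [hz, ← mul_assoc, ← mul_assoc, hxi]
    have hEY : E * Y = E := by
      rw [hn]
      apply absorb_pow_right
      rw [hz, mul_assoc, hyi]
    set e := δ E with he
    have hee : star s e e = e := by rw [he, ← hδ, hEE]
    -- the corner data
    let ψ' : Corner E → ℕ → ℕ → Prop := fun t => ψ t.1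
    have hψ' : ∀ a b : Corner E, ψ' (a * b) = comp (ψ' a) (ψ' b) := fun a b => hψ a.1 b.1
    have hsand : ∀ W : T, ψ' (Corner.sand E W) = comp (comp (idOn (j + 1) K) (ψ W)) (idOn (j + 1) K) := by
      intro W
      show ψ (E * W * E) = _
      rw [hψ, hψ, hER]
    let g : ℕ → Corner E := fun t => Corner.sand E (x (t + 1) * y 1)
    let g' : ℕ → Corner E := fun t => Corner.sand E (x 1 * y (t + 1))
    have hgR : ∀ t, t < m + 1 → ψ' (g (t + 1)) = rho (j + 1) K (t + 1) := by
      intro t ht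
      show ψ' (Corner.sand E (x (t + 1 + 1) * y 1)) = _
      rw [hsand, hψ, hxR _ (by omega) (by omega), hyR 1 (by omega) (by omega)]
      exact rel_G hK2 (by omega)
    have hgR' : ∀ t, t < m + 1 → ψ' (g' (t + 1)) = sig (j + 1) K (t + 1) := by
      intro t ht
      show ψ' (Corner.sand E (x 1 * y (t + 1 + 1))) = _
      rw [hsand, hψ, hxR 1 (by omega) (by omega), hyR _ (by omega) (by omega)]
      exact rel_G' hK2 (by omega)
    have hK3 : K = (j + 1) + (m + 1) := by omega
    have hone' : ψ' 1 = idOn (j + 1) K := hER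
    let x' := chainOf g
    let y' := chainOf g'
    have hx'R : ∀ t, t ≤ m + 1 → ψ' (x' t) = rho (j + 1) K t :=
      chainOf_rel hψ' (by rw [hone', rho_zero]) hgR
        (fun t ht => rho_step hK3 (by omega)) (fun t ht => rho_idem hK3 (by omega))
    have hy'R : ∀ t, t ≤ m + 1 → ψ' (y' t) = sig (j + 1) K t :=
      chainOf_rel hψ' (by rw [hone', sig_zero]) hgR'
        (fun t ht => sig_step hK3 (by omega)) (fun t ht => sig_idem hK3 (by omega))
    have hIH := @ih (Corner E) _ _ (Lines s e) _ (lineS s e) (cornerDelta hδ) (cornerDelta_one hδ)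
      (cornerDelta_mul hδ) (j + 1) K (by omega) ψ' hone' hψ'
      (fun a b hab => sep a.1 b.1 (cornerDelta_inj hδ hab))
      (by
        intro j' h1 h2
        obtain ⟨k0, hk0⟩ := hk j' (by omega) h2
        refine ⟨Corner.sand E k0, ?_⟩
        rw [hsand, hk0]
        exact rel_sand (by omega))
      x' y'
      (fun i _ h2 => hx'R i h2) (fun i _ h2 => hy'R i h2)
      (chainOf_idem g _) (chainOf_idem g' _)
      (fun i _ _ => chainOf_absorb g i) (fun i _ _ => chainOf_absorb g' i)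
    -- moved lines lie in `V`
    set U : Set Λ := Mov (δ X) ∪ Mov (δ Y) with hU
    set V : Set Λ := LinesMeeting s e U with hV
    set U' : Set (Lines s e) := Mov (cornerDelta hδ (x' (m + 1))) ∪ Mov (cornerDelta hδ (y' (m + 1)))
      with hU'
    have hsub : Subtype.val '' U' ⊆ V := by
      rintro _ ⟨a, ha, rfl⟩
      by_contra hc
      have hfixU : ∀ w, e.SameCycle a.1 w → δ X w = w ∧ δ Y w = w := by
        intro w hw
        by_contra hcc
        apply hc
        refine ⟨a.2, w, ?_, hw⟩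
        by_cases h1 : δ X w = w
        · have h2 : δ Y w ≠ w := fun h2 => hcc ⟨h1, h2⟩
          exact Or.inr h2
        · exact Or.inl h1
      have hxfix : ∀ w, e.SameCycle a.1 w → ∀ i, 1 ≤ i → i ≤ m + 2 → δ (x i) w = w := fun w hw =>
        fix_down hδ (n := m + 2) hxx (hfixU w hw).1
      have hyfix : ∀ w, e.SameCycle a.1 w → ∀ i, 1 ≤ i → i ≤ m + 2 → δ (y i) w = w := fun w hw =>
        fix_down hδ (n := m + 2) hyy (hfixU w hw).2
      have hP : ∀ t, t < m + 1 → g (t + 1) ∈ lineFixer hδ E a := by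
        intro t ht
        apply cornerDelta_sand_fix hδ
        intro w hw
        rw [hδ]
        exact star_fix (hxfix w hw _ (by omega) (by omega)) (hyfix w hw 1 (by omega) (by omega))
      have hP' : ∀ t, t < m + 1 → g' (t + 1) ∈ lineFixer hδ E a := by
        intro t ht
        apply cornerDelta_sand_fix hδ
        intro w hw
        rw [hδ]
        exact star_fix (hxfix w hw 1 (by omega) (by omega)) (hyfix w hw _ (by omega) (by omega))
      rcases ha with ha | ha
      · exact ha (chainOf_mem g _ hP _ (le_refl _))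
      · exact ha (chainOf_mem g' _ hP' _ (le_refl _))
    have hcard : U'.ncard ≤ V.ncard := by
      rw [← Set.ncard_image_of_injective U' Subtype.val_injective]
      exact Set.ncard_le_ncard hsub
    have hkey : 4 * V.ncard ≤ 3 * U.ncard :=
      key_ineq (by rw [← hδ, hxi]) (by rw [← hδ, hyi]) hee (by rw [← hδ, hXE]) (by rw [← hδ, hEY])
    -- arithmetic
    have h3 : 0 < 3 ^ m := by positivity
    calc 2 * 4 ^ (m + 1) = 4 * (2 * 4 ^ m) := by ring
      _ ≤ 4 * (U'.ncard * 3 ^ m) := by exact Nat.mul_le_mul_left _ hIH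
      _ ≤ 4 * (V.ncard * 3 ^ m) := by
          exact Nat.mul_le_mul_left _ (Nat.mul_le_mul_right _ hcard)
      _ = (4 * V.ncard) * 3 ^ m := by ring
      _ ≤ (3 * U.ncard) * 3 ^ m := Nat.mul_le_mul_right _ hkey
      _ = U.ncard * 3 ^ (m + 1) := by ring

end Crest.Agent.TW
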