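import Crest.Agent.Lib.TW.Recursion
import Crest.Prelude.Def_TwoWay
import Crest.Agent.Lib.TwoWayBeh.Upper

/-!
The abstract lower bound: a star-multiplicative permutation representation of words which separates
the word relations has at least `2 (4/3)^(h-2)` labels.
-/

set_option autoImplicit false

namespace Crest.Agent.TW

open Crest.TwoWay

universe u

section words

variable {h : ℕ}

/-- The word relation as a relation on natural numbers. -/
def relOf (w : List (Fin h → Fin h → Bool)) (a b : ℕ) : Prop :=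
  ∃ (ha : a < h) (hb : b < h), wordRel w ⟨a, ha⟩ ⟨b, hb⟩

lemma wordRel_append (u v : List (Fin h → Fin h → Bool)) (a c : Fin h) :
    wordRel (u ++ v) a c ↔ ∃ b, wordRel u a b ∧ wordRel v b c := by
  induction u generalizing a with
  | nil => simp [wordRel]
  | cons R u ih =>
    simp only [List.cons_append, wordRel, ih]
    constructor
    · rintro ⟨b, h1, d, h2, h3⟩
      exact ⟨d, ⟨b, h1, h2⟩, h3⟩
    · rintro ⟨d, ⟨b, h1, h2⟩, h3⟩
      exact ⟨b, h1, d, h2, h3⟩

lemma relOf_append (u v : List (Fin h → Fin h → Bool)) :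
    relOf (u ++ v) = comp (relOf u) (relOf v) := by
  funext a b
  apply propext
  constructor
  · rintro ⟨ha, hb, hr⟩
    obtain ⟨c, h1, h2⟩ := (wordRel_append u v _ _).1 hr
    exact ⟨c.1, ⟨ha, c.2, h1⟩, ⟨c.2, hb, h2⟩⟩
  · rintro ⟨c, ⟨ha, hc, h1⟩, ⟨_, hb, h2⟩⟩
    exact ⟨ha, hb, (wordRel_append u v _ _).2 ⟨⟨c, hc⟩, h1, h2⟩⟩

lemma relOf_nil (hh : 1 ≤ h) : relOf (h := h) [] = idOn 0 (h - 1) := by
  funext a b
  apply propext
  simp only [relOf, wordRel, idOn]
  constructor
  · rintro ⟨ha, hb, hr⟩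
    have := congrArg Fin.val hr
    simp only at this
    omega
  · rintro ⟨rfl, _, h2⟩
    exact ⟨by omega, by omega, rfl⟩

open Classical in
/-- The letter with a prescribed relation. -/
noncomputable def letterOf (R : ℕ → ℕ → Prop) : Fin h → Fin h → Bool :=
  fun a b => decide (R a.1 b.1)

open Classical in
lemma relOf_letter (R : ℕ → ℕ → Prop) (hR : ∀ a b, R a b → a < h ∧ b < h) :
    relOf (h := h) [letterOf R] = R := by
  funext a b
  apply propext
  simp only [relOf, wordRel, letterOf]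
  constructor
  · rintro ⟨ha, hb, c, h1, h2⟩
    have h3 := of_decide_eq_true h1
    subst h2
    exact h3
  · intro hr
    obtain ⟨ha, hb⟩ := hR a b hr
    exact ⟨ha, hb, ⟨b, hb⟩, decide_eq_true hr, rfl⟩

end words

variable {Λ : Type u} [Finite Λ] (s : Λ → Bool) {h : ℕ}

/-- The congruence of a word representation. -/
def wordCon (δ : List (Fin h → Fin h → Bool) → Equiv.Perm Λ)
    (happ : ∀ u v, δ (u ++ v) = star s (δ u) (δ v)) : Con (FreeMonoid (Fin h → Fin h → Bool)) where
  r u v := δ u.toList = δ v.toList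
  iseqv := ⟨fun _ => rfl, Eq.symm, Eq.trans⟩
  mul' := by
    intro a b c d h1 h2
    simp only [FreeMonoid.toList_mul, happ]
    rw [h1, h2]

theorem perm_lower_bound (hh : 2 ≤ h) (δ : List (Fin h → Fin h → Bool) → Equiv.Perm Λ)
    (hnil : δ [] = 1) (happ : ∀ u v, δ (u ++ v) = star s (δ u) (δ v))
    (hsep : ∀ u v, δ u = δ v → ∀ a b, (wordRel u a b ↔ wordRel v a b)) :
    2 * 4 ^ (h - 2) ≤ Nat.card Λ * 3 ^ (h - 2) := by
  classical
  let c := wordCon s δ happ
  let T := c.Quotient
  let δT : T → Equiv.Perm Λ := fun q => Con.liftOn q (fun u => δ u.toList) (fun _ _ hab => hab)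
  let ψT : T → ℕ → ℕ → Prop := fun q => Con.liftOn q (fun u => relOf u.toList) (by
    intro a b hab
    have hab' : δ a.toList = δ b.toList := hab
    funext p q
    apply propext
    constructor
    · rintro ⟨ha, hb, hr⟩
      exact ⟨ha, hb, (hsep _ _ hab' _ _).1 hr⟩
    · rintro ⟨ha, hb, hr⟩
      exact ⟨ha, hb, (hsep _ _ hab' _ _).2 hr⟩)
  have hδT : ∀ u : FreeMonoid (Fin h → Fin h → Bool), δT (u : c.Quotient) = δ u.toList := fun _ => rfl
  have hψT : ∀ u : FreeMonoid (Fin h → Fin h → Bool), ψT (u : c.Quotient) = relOf u.toList :=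
    fun _ => rfl
  have hinj : Function.Injective δT := by
    intro p q
    induction p using Con.induction_on with
    | H u =>
      induction q using Con.induction_on with
      | H v =>
        intro hpq
        exact (Con.eq c).2 hpq
  have : Finite T := Finite.of_injective δT hinj
  have hδ1 : δT 1 = 1 := hnil
  have hδmul : ∀ a b, δT (a * b) = star s (δT a) (δT b) := by
    intro a b
    induction a using Con.induction_on with
    | H u =>
      induction b using Con.induction_on with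
      | H v =>
        show δ (u * v).toList = _
        rw [FreeMonoid.toList_mul, happ]
        rfl
  have hψ1 : ψT 1 = idOn 0 (h - 1) := relOf_nil (by omega)
  have hψmul : ∀ a b, ψT (a * b) = comp (ψT a) (ψT b) := by
    intro a b
    induction a using Con.induction_on with
    | H u =>
      induction b using Con.induction_on with
      | H v =>
        show relOf (u * v).toList = _
        rw [FreeMonoid.toList_mul, relOf_append]
        rfl
  have hsepT : ∀ a b, δT a = δT b → ψT a = ψT b := by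
    intro a b
    induction a using Con.induction_on with
    | H u =>
      induction b using Con.induction_on with
      | H v =>
        intro hab
        have hab' : δ u.toList = δ v.toList := hab
        show relOf u.toList = relOf v.toList
        funext p q
        apply propext
        constructor
        · rintro ⟨ha, hb, hr⟩
          exact ⟨ha, hb, (hsep _ _ hab' _ _).1 hr⟩
        · rintro ⟨ha, hb, hr⟩
          exact ⟨ha, hb, (hsep _ _ hab' _ _).2 hr⟩
  -- letters
  let lett : (ℕ → ℕ → Prop) → T := fun R =>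
    ((FreeMonoid.of (letterOf R) : FreeMonoid (Fin h → Fin h → Bool)) : c.Quotient)
  have hlett : ∀ R : ℕ → ℕ → Prop, (∀ a b, R a b → a < h ∧ b < h) → ψT (lett R) = R := by
    intro R hR
    show relOf [letterOf R] = R
    exact relOf_letter R hR
  set K := h - 1 with hK
  set m := h - 2 with hm
  have hKm : K = 0 + m + 1 := by omega
  have hk : ∀ j', 0 < j' → j' ≤ K → ∃ k, ψT k = idOn j' K := by
    intro j' _ _
    refine ⟨lett (idOn j' K), hlett _ ?_⟩
    rintro a b ⟨rfl, _, h2⟩
    omega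
  let g : ℕ → T := fun t => lett (rho 0 K t)
  let g' : ℕ → T := fun t => lett (sig 0 K t)
  have hK2 : K = 0 + (m + 1) := by omega
  have hgR : ∀ t, t < m + 1 → ψT (g (t + 1)) = rho 0 K (t + 1) := by
    intro t ht
    apply hlett
    rintro a b (⟨rfl, _, h2⟩ | ⟨rfl, h1, h2⟩) <;> omega
  have hgR' : ∀ t, t < m + 1 → ψT (g' (t + 1)) = sig 0 K (t + 1) := by
    intro t ht
    apply hlett
    rintro a b (⟨rfl, _, h2⟩ | ⟨rfl, h1, h2⟩) <;> omega
  have hxR : ∀ t, t ≤ m + 1 → ψT (chainOf g t) = rho 0 K t :=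
    chainOf_rel hψmul (by rw [hψ1, rho_zero]) hgR
      (fun t ht => rho_step hK2 (by omega)) (fun t ht => rho_idem hK2 (by omega))
  have hyR : ∀ t, t ≤ m + 1 → ψT (chainOf g' t) = sig 0 K t :=
    chainOf_rel hψmul (by rw [hψ1, sig_zero]) hgR'
      (fun t ht => sig_step hK2 (by omega)) (fun t ht => sig_idem hK2 (by omega))
  have hrec := recursion m s δT hδ1 hδmul 0 K hKm ψT hψ1 hψmul hsepT hk (chainOf g) (chainOf g')
    (fun i _ h2 => hxR i h2) (fun i _ h2 => hyR i h2) (chainOf_idem g _) (chainOf_idem g' _)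
    (fun i _ _ => chainOf_absorb g i) (fun i _ _ => chainOf_absorb g' i)
  have hle : (Mov (δT (chainOf g (m + 1))) ∪ Mov (δT (chainOf g' (m + 1)))).ncard ≤ Nat.card Λ := by
    rw [← Set.ncard_univ]
    exact Set.ncard_le_ncard (Set.subset_univ _)
  exact hrec.trans (Nat.mul_le_mul_right _ hle)

/-- Arithmetic for the final statement. -/
lemma final_numerics {h N s : ℕ} (h1 : 2 * 4 ^ (h - 2) ≤ N * 3 ^ (h - 2))
    (hN : N ≤ 4 * (s + 2)) (hs : 1 ≤ s) : 2 ^ ((h - 2) / 31) ≤ 4 * (s + 1) ^ 2 := by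
  set d := h - 2 with hd
  set q := d / 31 with hq
  have hd2 : 31 * q ≤ d := Nat.mul_div_le d 31
  have h2 : 2 ^ q * 3 ^ d ≤ 4 ^ d := by
    obtain ⟨r, hr⟩ := Nat.exists_eq_add_of_le hd2
    rw [hr, pow_add, pow_add, pow_mul, pow_mul]
    have h3 : 2 ^ q * (3 ^ 31) ^ q ≤ (4 ^ 31) ^ q := by
      rw [← mul_pow]
      exact Nat.pow_le_pow_left (by norm_num) q
    have h4 : (3 : ℕ) ^ r ≤ 4 ^ r := Nat.pow_le_pow_left (by norm_num) r
    calc 2 ^ q * ((3 ^ 31) ^ q * 3 ^ r) = (2 ^ q * (3 ^ 31) ^ q) * 3 ^ r := by ring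
      _ ≤ (4 ^ 31) ^ q * 4 ^ r := Nat.mul_le_mul h3 h4
  have h3 : (2 * 2 ^ q) * 3 ^ d ≤ N * 3 ^ d := by
    calc (2 * 2 ^ q) * 3 ^ d = 2 * (2 ^ q * 3 ^ d) := by ring
      _ ≤ 2 * 4 ^ d := Nat.mul_le_mul_left _ h2
      _ ≤ _ := h1
  have h4 : 2 * 2 ^ q ≤ N := Nat.le_of_mul_le_mul_right h3 (by positivity)
  have h5 : 2 * 2 ^ q ≤ 4 * (s + 2) := h4.trans hN
  nlinarith

end Crest.Agent.TW
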